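import Claimed.Agent.R280.Gal.Defs
import Claimed.Agent.R280.Spec.Top

/-!
# Row 280: `NoSmallCover`  ⇐  `spec_main` + `LevelData`

`LevelData p m K X Ξ L XX` = everything `SpecData` wants except the cover `YY`: the valued field `L` (finite over `K = K_s`),
its residue field `F`, the Gauss valuation of `XX = X ⊗_K L` with residue field `EE`, polarisations, marked places, reduction
of sections and the genus estimate [D] for `EE/F`.  It is the deliverable of the constructions ([T], [V], Gauss, Lvl) and of `ins_main`.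
-/

set_option autoImplicit false

namespace Claimed.Agent.R280

open WithZero

structure LevelData (p m : ℕ) (K X : Type) [Field K] [Field X] [Algebra K X] (Ξ : Set (Place K X))
    (L XX : Type) [Field L] [Field XX] [Algebra L XX] [Algebra X XX] where
  F : Type
  EE : Type
  [fF : Field F]
  [fEE : Field EE]
  [aFEE : Algebra F EE]
  [cp : CharP F p]
  [infF : Infinite F]
  [ffE : IsFF F EE]
  ffX : IsFF L XX
  vL : Valuation L ℚᵐ⁰
  vL_surj : Function.Surjective vL
  sph : IsSphComplete vL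
  rL : ResMap vL F
  vX : Valuation XX ℚᵐ⁰
  vX_ext : ∀ a : L, vX (algebraMap L XX a) = vL a
  rX : ResMap vX EE
  rX_ext : ∀ a : L, vL a ≤ 1 → rX.res (algebraMap L XX a) = algebraMap F EE (rL.res a)
  chiX : chi L XX = 0
  DX : Dvsr L XX
  DF : Dvsr F EE
  DX_nonneg : ∀ P, 0 ≤ DX P
  DF_nonneg : ∀ P, 0 ≤ DF P
  deg_pos : 0 < DX.deg
  deg_eq : DX.deg = DF.deg
  Lam : Type
  [ftLam : Fintype Lam]
  [neLam : Nonempty Lam]
  P : Lam → Place L XX
  t : Lam → Place F EE
  P_inj : Function.Injective P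
  t_inj : Function.Injective t
  /-- the marked places are the places over `Ξ` -/
  P_iff : ∀ P' : Place L XX, P' ∈ Set.range P ↔ ∃ P₀ ∈ Ξ, P'.Over P₀
  deg_P : ∀ l, (P l).deg = (t l).deg
  DX_P : ∀ l, DX (P l) = 0
  DF_t : ∀ l, DF (t l) = 0
  red : ∀ (j : ℕ) (A : Finset Lam) (b : XX), b ∈ LSp (j • DX - ∑ l ∈ A, Finsupp.single (P l) 1) →
    vX b ≤ 1 → rX.res b ∈ LSp (j • DF - ∑ l ∈ A, Finsupp.single (t l) 1)
  insep : InsepGenus F EE t m

/-- glue: the specialisation theorem turns level data for all small `L` into `NoSmallCover` -/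
theorem noSmallCover_of_level (p m h : ℕ) [Fact p.Prime] (K X : Type) [Field K] [Field X]
    [Algebra K X] [CharZero K] [IsFF K X] (Ξ : Set (Place K X))
    (lvl : ∀ (L XL : Type) [Field L] [Field XL] [Algebra K L] [Algebra K XL] [Algebra L XL]
      [Algebra X XL] [IsScalarTower K L XL] [IsScalarTower K X XL] [FiniteDimensional K L],
      Algebra.IsPushout K L X XL → ¬ p ^ h ∣ Module.finrank K L →
      Nonempty (LevelData p m K X Ξ L XL))
    (J : Type) [Group J] [Finite J] (hm : Nat.card J = m)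
    (hJ : ∀ N : Subgroup J, N.Normal → IsPGroup p N → N = ⊥) : NoSmallCover K X Ξ p h J := by
  intro L XL Y _ _ _ _ _ _ _ _ _ _ _ _ _ _ _ po halg ⟨e⟩ hram
  by_contra hdiv
  obtain ⟨D⟩ := lvl L XL po hdiv
  let _ := D.fF; let _ := D.fEE; let _ := D.aFEE
  have := D.cp; have := D.infF; have := D.ffE; have := D.ffX
  let _ := D.ftLam; have := D.neLam
  have : CharZero L := charZero_of_injective_algebraMap (algebraMap K L).injective
  have hcard : Module.finrank XL Y = m := by
    rw [← hm, ← IsGalois.card_aut_eq_finrank XL Y]; exact Nat.card_congr e.toEquiv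
  let C : SpecData p :=
    { L := L, XX := XL, YY := Y, F := D.F, EE := D.EE
      vL := D.vL, vL_surj := D.vL_surj, sph := D.sph, rL := D.rL, vX := D.vX, vX_ext := D.vX_ext
      rX := D.rX, rX_ext := D.rX_ext, chiX := D.chiX, DX := D.DX, DF := D.DF
      DX_nonneg := D.DX_nonneg, DF_nonneg := D.DF_nonneg, deg_pos := D.deg_pos, deg_eq := D.deg_eq
      Lam := D.Lam, P := D.P, t := D.t, P_inj := D.P_inj, t_inj := D.t_inj, deg_P := D.deg_P
      DX_P := D.DX_P, DF_t := D.DF_t, red := D.red, algClosed := halg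
      unram := fun P' Q hQ hP' => by
        obtain ⟨P₀, hP₀, -⟩ := Place.existsUnique_below_constExt po P'
        exact (hram P₀ P' Q hP₀ hQ).2 fun h0 => hP' ((D.P_iff P').2 ⟨P₀, h0, hP₀⟩)
      ram := fun l Q hQ => by
        obtain ⟨P₀, h0, hP₀⟩ := (D.P_iff (D.P l)).1 ⟨l, rfl⟩
        exact (hram P₀ (D.P l) Q hP₀ hQ).1 h0
      insep := hcard ▸ D.insep }
  obtain ⟨N, hN, hpN, hne⟩ := spec_main p C
  change Subgroup (Y ≃ₐ[XL] Y) at N
  have h1 : (N.map e.toMonoidHom).Normal := hN.map _ e.surjective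
  have h2 : IsPGroup p (N.map e.toMonoidHom) := hpN.map _
  have h3 := hJ _ h1 h2
  apply hne
  rw [Subgroup.map_eq_bot_iff_of_injective N e.injective] at h3
  exact h3

end Claimed.Agent.R280
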