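import Claimed.Agent.R280.Gal.Main
import Claimed.Agent.R280.RET.Main
import Claimed.Agent.R280.Tw.Main
import Claimed.Agent.R280.Tw.D10
import Claimed.Agent.R280.Tw.A2
import Claimed.Agent.R280.Tw.E1
import Claimed.Agent.R280.Tw.E3
import Claimed.Agent.R280.Tw.Marked

/-!
# Row 280: top of part B.

    tupleDiv : TupleDiv p
      ⇐ exists_baseData     (thm A: construction of the twisted marked curve over K = K_s;  [T], [V] 6.1-6.2)
      ⇐ BaseData.exists_topExt (thm E: base change to the algebraic closure Om ≅ ℂ)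
      ⇐ TwBase.baseChange, TwBase.levelData (⇐ TwBase.insepGenus ⇐ ins_main)   (thms B, C, D)
      ⇐ spec_main           ([S])
      ⇐ card_sur_dvd        (B0: Galois orbits and descent)
      ⇐ ret_torus           (Riemann existence for the punctured torus)
All glue in this file is proved.
-/

set_option autoImplicit false

namespace Claimed.Agent.R280

open WithZero

/-- The geometric side of the marked curve `X/K`: an algebraic closure `Om` of `K` of the cardinality of `ℂ`,
`XOm = X ⊗_K Om = Om(x,y)` the function field of a Weierstrass curve, the `n` marked points `(a i, b i)` = the places over `Ξ`. -/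
structure TopExt (m n : ℕ) (K X : Type) [Field K] [Field X] [Algebra K X] (Ξ : Set (Place K X)) where
  Om : Type
  XOm : Type
  [fOm : Field Om]
  [fXOm : Field XOm]
  [aKOm : Algebra K Om]
  [aOmXOm : Algebra Om XOm]
  [aXXOm : Algebra X XOm]
  [aKXOm : Algebra K XOm]
  [t1 : IsScalarTower K Om XOm]
  [t2 : IsScalarTower K X XOm]
  [ac : IsAlgClosure K Om]
  po : Algebra.IsPushout K Om X XOm
  card : Cardinal.mk Om = Cardinal.continuum
  ζ : K
  hζ : IsPrimitiveRoot ζ m
  W : WeierstrassCurve Om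
  hΔ : W.Δ ≠ 0
  x : XOm
  y : XOm
  hxy : (W.baseChange XOm).toAffine.Equation x y
  hx : Transcendental Om x
  hgen : IntermediateField.adjoin Om {x, y} = ⊤
  a : Fin n → Om
  b : Fin n → Om
  ξ : Fin n → Place Om XOm
  hξ : ∀ i, (ξ i).v (x - algebraMap Om XOm (a i)) < 1 ∧ (ξ i).v (y - algebraMap Om XOm (b i)) < 1
  ha : Function.Injective a
  hb : ∀ i, 2 * b i + W.a₁ * a i + W.a₃ ≠ 0
  hΞ : ∀ Q : Place Om XOm, Q ∈ Set.range ξ ↔ ∃ P ∈ Ξ, Q.Over P

attribute [instance] TopExt.fOm TopExt.fXOm TopExt.aKOm TopExt.aOmXOm TopExt.aXXOm TopExt.aKXOm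
  TopExt.t1 TopExt.t2 TopExt.ac

/-- B0 + RET -/
theorem tup_dvd_of_topExt {p m h n : ℕ} [Fact p.Prime] (hn : 0 < n) {K X : Type} [Field K] [Field X]
    [Algebra K X] [CharZero K] [IsFF K X] {Ξ : Set (Place K X)} (T : TopExt m n K X Ξ) (J : Type)
    [Group J] [Finite J] (hm : Nat.card J = m)
    (hJ : ∀ N : Subgroup J, N.Normal → IsPGroup p N → N = ⊥) (nsc : NoSmallCover K X Ξ p h J)
    (C : Multiset (ConjClasses J)) (hC : ∀ c ∈ C, ∀ g : J, ConjClasses.mk g = c → p ∣ orderOf g) :
    p ^ h ∣ Nat.card (Tup J n C) := by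
  classical
  -- an abstract isomorphism `ℂ ≃ Om`
  have : IsAlgClosed T.Om := IsAlgClosure.isAlgClosed K
  have : CharZero T.Om := charZero_of_injective_algebraMap (algebraMap K T.Om).injective
  obtain ⟨e⟩ : Nonempty (ℂ ≃+* T.Om) := by
    apply IsAlgClosed.ringEquiv_of_equiv_of_charZero
    · rw [Cardinal.mk_complex]; exact Cardinal.aleph0_lt_continuum
    · exact Cardinal.eq.mp (by rw [T.card, Cardinal.mk_complex])
  -- the root of unity of RET lies in `K`
  set z : ℂ := Complex.exp (2 * Real.pi * Complex.I / (Nat.card J : ℂ)) with hz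
  have hmpos : Nat.card J ≠ 0 := Nat.card_pos.ne'
  have hzprim : IsPrimitiveRoot z (Nat.card J) := Complex.isPrimitiveRoot_exp _ hmpos
  have hez : IsPrimitiveRoot (e z) (Nat.card J) := hzprim.map_of_injective e.injective
  have hζ' : IsPrimitiveRoot (algebraMap K T.Om T.ζ) (Nat.card J) := by
    rw [hm]; exact T.hζ.map_of_injective (algebraMap K T.Om).injective
  have : NeZero (Nat.card J) := ⟨hmpos⟩
  obtain ⟨i, _, hi⟩ := hζ'.eq_pow_of_pow_eq_one hez.pow_eq_one
  have hζi : IsPrimitiveRoot (T.ζ ^ i) (Nat.card J) := by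
    have : IsPrimitiveRoot (algebraMap K T.Om (T.ζ ^ i)) (Nat.card J) := by
      rw [map_pow, hi]; exact hez
    exact this.of_map_of_injective (algebraMap K T.Om).injective
  have hinj : Function.Injective T.ξ := by
    intro i j hij
    apply T.ha
    by_contra hne
    have h1 := (T.hξ i).1
    have h2 := (T.hξ j).1
    rw [← hij] at h2
    have h3 : (T.ξ i).v (algebraMap T.Om T.XOm (T.a i - T.a j)) < 1 := by
      have : algebraMap T.Om T.XOm (T.a i - T.a j)
          = (T.x - algebraMap _ _ (T.a j)) - (T.x - algebraMap _ _ (T.a i)) := by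
        rw [map_sub]; ring
      rw [this]
      exact lt_of_le_of_lt (Valuation.map_sub _ _ _) (max_lt h2 h1)
    rw [(T.ξ i).triv _ (sub_ne_zero.2 hne)] at h3
    exact lt_irrefl _ h3
  have key := card_sur_dvd (E := AlgebraicClosure T.XOm) T.po p h J hJ hn T.ξ hinj Ξ T.hΞ (T.ζ ^ i)
    hζi nsc C hC
  rw [map_pow, hi] at key
  rwa [ret_torus e T.W T.hΔ T.x T.y T.hxy T.hx T.hgen T.a T.b T.ξ T.hξ T.ha T.hb J C] at key

/-- The twisted marked curve over `K = K_s` (base level): index `n`, no label rank defect, `n` labels. -/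
structure BaseData (p : ℕ) [Fact p.Prime] (m n : ℕ) where
  K : Type
  X : Type
  [fK : Field K]
  [fX : Field X]
  [aKX : Algebra K X]
  [ff : IsFF K X]
  T : TwBase p K X
  hN : T.N = n
  hu : T.R.u = 0
  hI : Fintype.card T.R.I = n
  card : Cardinal.mk K = Cardinal.continuum
  ζ : K
  hζ : IsPrimitiveRoot ζ m

attribute [instance] BaseData.fK BaseData.fX BaseData.aKX BaseData.ff

/-- **thm A**: the construction ([T] Prop. 4.4, [V] Prop. 6.1, 6.2) -/
theorem exists_baseData (p : ℕ) [Fact p.Prime] (m s : ℕ) (hm : 0 < m) (hs : 1 ≤ s) :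
    Nonempty (BaseData p m (p ^ s)) := by
  obtain ⟨Kb, _, B, hd, hu, hI, hcob, hcard, ζ, hζ⟩ := exists_fldBase_disc p m s hm hs
  obtain ⟨K, _, _, B', hR, hsurj, hsph⟩ := B.sphericalise hd
  obtain ⟨X, X1, _, _, _, _, _, _, _, _, xt, yt, twL⟩ :=
    exists_twist B'.Wt (B'.red_W.disc_ne_zero B'.R.hΔ) B'.σ B'.σ_gen B'.Q B'.Q_fix B'.Q_tors
  obtain ⟨EE, ES, _, _, _, _, _, _, _, _, x0, y0, twF⟩ :=
    exists_twist B'.R.W0 B'.R.hΔ B'.R.σb B'.R.σb_gen B'.R.Qb B'.R.Qb_fix B'.R.Qb_tors
  have hcob' : B'.R.Cob (p ^ s) := hR ▸ hcob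
  have ff : IsFF K X := twL.isFF
  let T : TwBase p K X :=
    { toFldBase := B', vL_surj := hsurj, sph := hsph, XX1 := X1, EE := EE, ES := ES
      xt := xt, yt := yt, x0 := x0, y0 := y0, twL := twL, twF := twF, N := p ^ s
      index := fun P => index_of_cob twF B'.R.hΔ (p ^ s) hcob' P }
  have hcardF : Cardinal.mk B'.R.F = Cardinal.continuum := hR ▸ hcard
  have hcardK : Cardinal.mk K = Cardinal.continuum := by
    apply le_antisymm
    · calc Cardinal.mk K ≤ (max (Cardinal.mk B'.R.F) Cardinal.aleph0) ^ Cardinal.aleph0 :=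
            card_le_of_resMap B'.vL B'.rL
        _ = Cardinal.continuum := by
            rw [hcardF, max_eq_left Cardinal.aleph0_le_continuum, Cardinal.continuum_power_aleph0]
    · rw [← hcardF]
      exact (Cardinal.mk_le_of_surjective B'.rL.surj).trans (Cardinal.mk_subtype_le _)
  exact ⟨{ K := K, X := X, T := T, hN := rfl, hu := by show B'.R.u = 0; rw [hR]; exact hu
           hI := by
            show Fintype.card B'.R.I = p ^ s
            have : ∀ (R R' : ResSide p), R = R' → Fintype.card R.I = Fintype.card R'.I := by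
              rintro R _ rfl; rfl
            rw [this _ _ hR]; exact hI
           card := hcardK, ζ := algebraMap Kb K ζ
           hζ := hζ.map_of_injective (algebraMap Kb K).injective }⟩

/-- **thm E**: base change to the algebraic closure -/
theorem BaseData.exists_topExt {p : ℕ} [Fact p.Prime] {m n : ℕ} (B : BaseData p m n) :
    Nonempty (TopExt m n B.K B.X {P | B.T.IsMarked P}) := by
  classical
  have hΔ : B.T.Wt.Δ ≠ 0 := B.T.red_W.disc_ne_zero B.T.R.hΔ
  let ι : B.T.L1 →ₐ[B.K] AlgebraicClosure B.K := IsAlgClosed.lift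
  obtain ⟨XOm, _, _, _, _, _, _, x', y', j1, wff, po, hx, hy, hc, hM, hint⟩ :=
    twist_geom hΔ B.T.twL (AlgebraicClosure B.K) ι
  obtain ⟨a, b, hab, ha, hb⟩ := B.T.toFldBase.label_coords
  let e : Fin n ≃ B.T.R.I := (Fintype.equivFinOfCardEq B.hI).symm
  have hΔ' : (B.T.Wt.baseChange (AlgebraicClosure B.K)).Δ ≠ 0 := by
    rw [WeierstrassCurve.baseChange, WeierstrassCurve.map_Δ]; exact (map_ne_zero _).2 hΔ
  let Z : B.T.R.I → (B.T.Wt.baseChange (AlgebraicClosure B.K)).toAffine.Point := fun i =>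
    WeierstrassCurve.Affine.Point.map (W' := B.T.Wt.toAffine) ι (B.T.ξ i)
  have hZ : ∀ i, PtMap (ι : B.T.L1 →+* AlgebraicClosure B.K) (B.T.ξ i) (Z i) := fun i =>
    ptMap_pointMap B.T.Wt ι (B.T.ξ i)
  have hpl : ∀ i, ∃ P : Place (AlgebraicClosure B.K) XOm, P.IsAtPt x' y' (Z i) := fun i =>
    (wff.existsUnique_atPt hΔ' (Z i)).exists
  choose ξ hξ using hpl
  have intX1 : (algebraMap B.X B.T.XX1).IsIntegral := by
    obtain ⟨δ, hδ, -⟩ := B.T.twL.twist
    have : IsGalois B.X B.T.XX1 := (B.T.twL.aut_eq_zpowers δ hδ).1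
    exact fun z => Algebra.IsSeparable.isIntegral B.X z
  have hkX1 : ∀ c : B.K, ∃ c' : B.T.L1,
      algebraMap B.X B.T.XX1 (algebraMap B.K B.X c) = algebraMap B.T.L1 B.T.XX1 c' :=
    fun c => ⟨algebraMap B.K B.T.L1 c, by
      rw [← IsScalarTower.algebraMap_apply, ← IsScalarTower.algebraMap_apply]⟩
  have hc' : ∀ c, j1 (algebraMap B.T.L1 B.T.XX1 c)
      = algebraMap (AlgebraicClosure B.K) XOm ((ι : B.T.L1 →+* AlgebraicClosure B.K) c) := hc
  refine ⟨{ Om := AlgebraicClosure B.K, XOm := XOm, po := po, card := ?_, ζ := B.ζ, hζ := B.hζ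
            W := B.T.Wt.baseChange (AlgebraicClosure B.K), hΔ := hΔ', x := x', y := y'
            hxy := wff.equation, hx := wff.transc, hgen := wff.gen
            a := fun i => ι (a (e i)), b := fun i => ι (b (e i)), ξ := fun i => ξ (e i)
            hξ := ?_, ha := ?_, hb := ?_, hΞ := ?_ }⟩
  · apply le_antisymm
    · calc Cardinal.mk (AlgebraicClosure B.K) ≤ max (Cardinal.mk B.K) Cardinal.aleph0 :=
            Algebra.IsAlgebraic.cardinalMk_le_max B.K (AlgebraicClosure B.K)
        _ = Cardinal.continuum := by rw [B.card, max_eq_left Cardinal.aleph0_le_continuum]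
    · rw [← B.card]
      exact Cardinal.mk_le_of_injective (algebraMap B.K (AlgebraicClosure B.K)).injective
  · intro i
    have h1 := hξ (e i)
    obtain ⟨h, hh⟩ := hab (e i)
    have h2 : Z (e i) = WeierstrassCurve.Affine.Point.map (W' := B.T.Wt.toAffine) ι
      (.some (a (e i)) (b (e i)) h) := by show WeierstrassCurve.Affine.Point.map _ _ = _; rw [hh]
    rw [h2] at h1
    exact h1
  · exact fun i i' h => e.injective (ha (ι.toRingHom.injective h))
  · intro i h
    apply hb (e i)
    apply ι.toRingHom.injective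
    rw [map_zero, ← h]
    simp only [AlgHom.toRingHom_eq_coe, map_add, map_mul, map_ofNat, RingHom.coe_coe,
      AlgHom.commutes]
    rfl
  · intro Q
    constructor
    · rintro ⟨i, rfl⟩
      obtain ⟨P1, hP1⟩ := Place.exists_overH j1 hint (fun c => ⟨ι c, hc c⟩) (ξ (e i))
      obtain ⟨P₀, hP₀⟩ := Place.exists_overH (algebraMap B.X B.T.XX1) intX1 hkX1 P1
      have hat : (ξ (e i)).IsAtPt (j1 B.T.xt) (j1 B.T.yt) (Z (e i)) := by rw [hx, hy]; exact hξ _
      exact ⟨P₀, ⟨e i, P1, (Place.isAtPt_iff_of_overH hc' hP1 (hZ _) _ _).1 hat, hP₀⟩,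
        (hP1.trans hP₀).congr hM⟩
    · rintro ⟨P₀, hmark, hov⟩
      obtain ⟨P1, hP1⟩ := Place.exists_overH j1 hint (fun c => ⟨ι c, hc c⟩) Q
      have h2 : P1.Over P₀ := Place.OverH.of_comp (j' := j1) hP1
        (Place.OverH.congr (fun f => (hM f).symm) hov)
      obtain ⟨i, hi⟩ := B.T.marked_above hmark P1 h2
      have h3 := (Place.isAtPt_iff_of_overH hc' hP1 (hZ i) _ _).2 hi
      rw [hx, hy] at h3
      exact ⟨e.symm i, by
        show ξ (e (e.symm i)) = Q
        rw [Equiv.apply_symm_apply]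
        exact (wff.existsUnique_atPt hΔ' (Z i)).unique (hξ i) h3⟩

/-- **Theorem 3.1** (uniform divisibility for generating tuples) -/
theorem tupleDiv (p : ℕ) [Fact p.Prime] : TupleDiv p := by
  intro J _ _ hJ h
  have hp : p.Prime := Fact.out
  set m := Nat.card J with hm
  set c := m * (h + Nat.log p m) with hc
  refine ⟨h + c + 1, fun s hs C hC => ?_⟩
  obtain ⟨B⟩ := exists_baseData p m s Nat.card_pos (by omega)
  obtain ⟨E⟩ := B.exists_topExt
  have : CharZero B.K := B.T.cz
  have hthr : m * (h + Nat.log p m) < p ^ (s - h) := by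
    calc c < s - h := by omega
      _ < p ^ (s - h) := Nat.lt_pow_self hp.one_lt
  have nsc : NoSmallCover B.K B.X {P | B.T.IsMarked P} p h J :=
    noSmallCover_of_level p m h B.K B.X _
      (fun L XL _ _ _ _ _ _ _ _ _ po hdiv =>
        B.T.lvl m h s B.hN B.hu (by omega) hthr L XL po hdiv) J rfl hJ
  exact tup_dvd_of_topExt (pow_pos hp.pos s) E J rfl hJ nsc C hC

end Claimed.Agent.R280
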